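import Mathlib

/-!
Smooth even decreasing approximations of a decreasing profile, with a smooth square root of the
drop from the centre.
-/

namespace Vale.Agent.P237.Gen.GN

open Set Filter
open scoped Topology

noncomputable section

/-- The Bernstein polynomial with node values `a`. -/
def bpoly (N : ℕ) (a : ℕ → ℝ) : Polynomial ℝ :=
  ∑ k ∈ Finset.range (N + 1), a k • bernsteinPolynomial ℝ N k

theorem bernsteinPolynomial_nonneg (N k : ℕ) {s : ℝ} (hs : s ∈ Icc (0:ℝ) 1) :
    0 ≤ (bernsteinPolynomial ℝ N k).eval s := by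
  have h1 : 0 ≤ 1 - s := by linarith [hs.2]
  have h0 := hs.1
  simp [bernsteinPolynomial]
  positivity

theorem bpoly_nonneg {N : ℕ} {a : ℕ → ℝ} (ha : ∀ k ≤ N, 0 ≤ a k) {s : ℝ} (hs : s ∈ Icc (0:ℝ) 1) :
    0 ≤ (bpoly N a).eval s := by
  simp only [bpoly, Polynomial.eval_finsetSum, Polynomial.eval_smul, smul_eq_mul]
  exact Finset.sum_nonneg fun k hk => mul_nonneg (ha k (Finset.mem_range_succ_iff.1 hk))
    (bernsteinPolynomial_nonneg N k hs)

theorem bpoly_deriv_nonpos {N : ℕ} {a : ℕ → ℝ} (ha : ∀ k < N, a (k+1) ≤ a k) {s : ℝ}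
    (hs : s ∈ Icc (0:ℝ) 1) : (bpoly N a).derivative.eval s ≤ 0 := by
  set b : ℕ → ℝ := fun k => (N:ℝ) * (bernsteinPolynomial ℝ (N - 1) k).eval s with hb
  have e : (bpoly N a).derivative.eval s = ∑ k ∈ Finset.range N, (a (k+1) - a k) * b k := by
    have h1 : ∀ k, (bernsteinPolynomial ℝ N (k+1)).derivative.eval s = b k - b (k+1) := fun k => by
      rw [bernsteinPolynomial.derivative_succ]
      simp [hb, mul_sub]
    have h0 : (bernsteinPolynomial ℝ N 0).derivative.eval s = - b 0 := by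
      rw [bernsteinPolynomial.derivative_zero]
      simp [hb]
    simp only [bpoly, map_sum, Polynomial.derivative_smul, Polynomial.eval_finsetSum,
      Polynomial.eval_smul, smul_eq_mul]
    rw [Finset.sum_range_succ', h0]
    simp only [h1]
    have hN : a N * b N = 0 := by
      rcases Nat.eq_zero_or_pos N with rfl | hN
      · simp [hb]
      · simp [hb, bernsteinPolynomial.eq_zero_of_lt ℝ (show N - 1 < N by omega)]
    have hsum : ∑ k ∈ Finset.range N, a (k+1) * b (k+1) =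
        (∑ k ∈ Finset.range N, a k * b k) - a 0 * b 0 := by
      have h2 := Finset.sum_range_succ' (fun k => a k * b k) N
      rw [Finset.sum_range_succ, hN, add_zero] at h2
      linarith
    simp only [sub_mul, Finset.sum_sub_distrib, mul_sub, hsum]
    ring
  rw [e]
  exact Finset.sum_nonpos fun k hk => mul_nonpos_of_nonpos_of_nonneg
    (sub_nonpos.2 (ha k (Finset.mem_range.1 hk)))
    (mul_nonneg N.cast_nonneg (bernsteinPolynomial_nonneg _ _ hs))

/-- An everywhere defined smooth function agreeing with a given one near `[-1, 1]`. -/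
theorem exists_global {U : Set ℝ} (hU : IsOpen U) (hs : Icc (-1:ℝ) 1 ⊆ U) {φ : ℝ → ℝ}
    (hφ : ∀ t ∈ U, ContDiffAt ℝ 2 φ t) :
    ∃ ψ : ℝ → ℝ, ContDiff ℝ 2 ψ ∧ (∀ t, ψ (-t) = -ψ t) ∧
      ∀ t ∈ Icc (-1:ℝ) 1, ψ t = (φ t - φ (-t)) / 2 := by
  obtain ⟨d, hd, hsub⟩ := isCompact_Icc.exists_cthickening_subset_open hU hs
  let χ : ContDiffBump (0:ℝ) := ⟨1, 1 + d, one_pos, by linarith⟩
  have hχU : tsupport χ ⊆ U := by
    rw [χ.tsupport_eq]
    intro t ht
    refine hsub (Metric.mem_cthickening_of_dist_le t (max (-1) (min 1 t)) d _ ⟨le_max_left _ _, max_le (by norm_num) (min_le_left _ _)⟩ ?_)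
    rw [Metric.mem_closedBall, Real.dist_eq, sub_zero, abs_le] at ht
    have ht' : -(1 + d) ≤ t ∧ t ≤ 1 + d := ht
    rw [Real.dist_eq, abs_le]
    rcases le_total t 1 with h | h <;> rcases le_total (-1) t with h' | h' <;>
      simp [h, h'] <;> first | linarith | (constructor <;> linarith)
  have hp : ContDiff ℝ 2 fun t => χ t * φ t := by
    rw [contDiff_iff_contDiffAt]
    intro t
    by_cases ht : t ∈ U
    · exact χ.contDiff.contDiffAt.mul (hφ t ht)
    · refine (contDiffAt_const (c := (0:ℝ))).congr_of_eventuallyEq ?_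
      filter_upwards [(isClosed_tsupport χ).isOpen_compl.mem_nhds fun h => ht (hχU h)] with y hy
      simp [image_eq_zero_of_notMem_tsupport hy]
  refine ⟨fun t => (χ t * φ t - χ (-t) * φ (-t)) / 2,
    (hp.sub (hp.comp contDiff_neg)).div_const 2, fun t => by simp only [neg_neg]; ring, fun t ht => ?_⟩
  have h1 : χ t = 1 := χ.one_of_mem_closedBall (by
    rw [Metric.mem_closedBall, Real.dist_eq, sub_zero]; exact abs_le.2 ht)
  have h2 : χ (-t) = 1 := χ.one_of_mem_closedBall (by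
    rw [Metric.mem_closedBall, Real.dist_eq, sub_zero, abs_neg]; exact abs_le.2 ht)
  simp [h1, h2]

/-- A smooth even decreasing function near `g`, and a smooth odd field realising the square root
of its normalised drop. -/
theorem exists_smooth {g : ℝ → ℝ} (hc : ContinuousOn g (Icc 0 1)) (ha : AntitoneOn g (Icc 0 1))
    (h0 : ∀ t ∈ Icc (0:ℝ) 1, 0 ≤ g t) {δ : ℝ} (hδ : 0 < δ) {η : ℝ} (hη : 0 < η) :
    ∃ F ψ : ℝ → ℝ, ContDiff ℝ 2 F ∧ ContDiff ℝ 2 ψ ∧ (∀ t, ψ (-t) = -ψ t) ∧
      (∀ t ∈ Icc (0:ℝ) 1, 0 ≤ F t) ∧ (∀ t ∈ Icc (0:ℝ) 1, deriv F t ≤ 0) ∧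
      (∀ t ∈ Icc (0:ℝ) 1, F t ≤ F 0) ∧
      (∀ t ∈ Icc (0:ℝ) 1, ψ t = Real.sqrt ((F 0 - F t) / (F t + δ))) ∧
      ∀ t ∈ Icc (0:ℝ) 1, |F t - g t| ≤ η := by
  classical
  let G : C(unitInterval, ℝ) := ⟨fun s => g (Real.sqrt s),
    hc.comp_continuous (Real.continuous_sqrt.comp continuous_subtype_val) fun s =>
      ⟨Real.sqrt_nonneg _, Real.sqrt_le_one.2 s.2.2⟩⟩
  have hG := bernsteinApproximation_uniform G
  rw [Metric.tendsto_atTop] at hG
  obtain ⟨N, hN⟩ := hG (η/2) (half_pos hη)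
  have hN := hN N le_rfl
  set a : ℕ → ℝ := fun k => g (Real.sqrt ((k:ℝ) / N)) with hadef
  set p := bpoly N a with hp
  set e := η / 4 with he
  have he0 : 0 < e := by positivity
  -- strictly decreasing correction
  set q : Polynomial ℝ := p + Polynomial.C e * (2 - Polynomial.X) with hq
  have hmemN : ∀ k ≤ N, Real.sqrt ((k:ℝ) / N) ∈ Icc (0:ℝ) 1 := fun k hk =>
    ⟨Real.sqrt_nonneg _, Real.sqrt_le_one.2 (div_le_one_of_le₀ (by exact_mod_cast hk) N.cast_nonneg)⟩
  have hpos : ∀ s ∈ Icc (0:ℝ) 1, 0 < q.eval s := fun s hs => by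
    have := bpoly_nonneg (fun k hk => h0 _ (hmemN k hk)) hs (a := a) (N := N)
    simp only [hq, Polynomial.eval_add, Polynomial.eval_mul, Polynomial.eval_C, Polynomial.eval_sub,
      Polynomial.eval_ofNat, Polynomial.eval_X, hp]
    nlinarith [hs.2]
  have hder : ∀ s ∈ Icc (0:ℝ) 1, q.derivative.eval s ≤ -e := fun s hs => by
    have := bpoly_deriv_nonpos (N := N) (a := a) (fun k hk => ha (hmemN k hk.le) (hmemN (k+1) hk)
      (Real.sqrt_le_sqrt (div_le_div_of_nonneg_right (by push_cast; linarith) N.cast_nonneg))) hs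
    simp [hq, hp]
    linarith
  -- the factor in front of `t ^ 2`
  set R : Polynomial ℝ := (Polynomial.C (q.eval 0) - q).divX with hR
  have hqR : ∀ s, q.eval 0 - q.eval s = s * R.eval s := fun s => by
    have h := congrArg (Polynomial.eval s) (Polynomial.X_mul_divX_add (Polynomial.C (q.eval 0) - q))
    simp [Polynomial.coeff_zero_eq_eval_zero] at h
    rw [hR]; linarith
  have hanti : ∀ s ∈ Icc (0:ℝ) 1, q.eval s + e * s ≤ q.eval 0 := by
    intro s hs
    have hm : AntitoneOn (fun s => q.eval s + e * s) (Icc (0:ℝ) 1) :=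
      antitoneOn_of_deriv_nonpos (convex_Icc 0 1) (by fun_prop) (by fun_prop) fun x hx => by
        rw [interior_Icc] at hx
        have hd : HasDerivAt (fun s => q.eval s + e * s) (q.derivative.eval x + e * 1) x :=
          (q.hasDerivAt x).add ((hasDerivAt_id x).const_mul e)
        rw [hd.deriv]
        linarith [hder x (Ioo_subset_Icc_self hx)]
    simpa using hm (left_mem_Icc.2 zero_le_one) hs hs.1
  have hRpos : ∀ s ∈ Icc (0:ℝ) 1, 0 < R.eval s := by
    intro s hs
    rcases eq_or_lt_of_le hs.1 with rfl | h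
    · have : R.eval 0 = -q.derivative.eval 0 := by
        have h := congrArg (fun r : Polynomial ℝ => r.derivative.eval 0)
          (Polynomial.X_mul_divX_add (Polynomial.C (q.eval 0) - q))
        simp at h
        rw [hR]; linarith
      rw [this]
      linarith [hder 0 hs]
    · nlinarith [hanti s hs, hqR s]
  set U : Set ℝ := {t | 0 < R.eval (t^2) ∧ 0 < q.eval (t^2) + δ} with hU
  have hUo : IsOpen U :=
    (isOpen_lt continuous_const (R.continuous.comp (continuous_pow 2))).inter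
      (isOpen_lt continuous_const ((q.continuous.comp (continuous_pow 2)).add continuous_const))
  have hsq : ∀ t ∈ Icc (-1:ℝ) 1, t^2 ∈ Icc (0:ℝ) 1 := fun t ht =>
    ⟨sq_nonneg t, by nlinarith [ht.1, ht.2]⟩
  have hIU : Icc (-1:ℝ) 1 ⊆ U := fun t ht => ⟨hRpos _ (hsq t ht), by linarith [hpos _ (hsq t ht)]⟩
  have cq : ∀ r : Polynomial ℝ, ContDiff ℝ 2 fun t : ℝ => r.eval (t^2) := fun r => by
    exact (r.contDiff_aeval (𝕜 := ℝ) (2 : ℕ∞)).comp (contDiff_id.pow 2)
  obtain ⟨ψ, hψ, hodd, hψe⟩ := exists_global hUo hIU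
    (φ := fun t => t * Real.sqrt (R.eval (t^2) / (q.eval (t^2) + δ))) fun t ht =>
      contDiffAt_id.mul ((((cq R).contDiffAt.div ((cq q).contDiffAt.add contDiffAt_const) ht.2.ne').sqrt
        (div_pos ht.1 ht.2).ne'))
  have hIcc : ∀ t ∈ Icc (0:ℝ) 1, t ∈ Icc (-1:ℝ) 1 := fun t ht => ⟨by linarith [ht.1], ht.2⟩
  refine ⟨fun t => q.eval (t^2), ψ, cq q, hψ, hodd, fun t ht => (hpos _ (hsq t (hIcc t ht))).le,
    fun t ht => ?_, fun t ht => ?_, fun t ht => ?_, fun t ht => ?_⟩
  · have hd := (q.hasDerivAt (t^2)).comp t (hasDerivAt_pow 2 t)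
    rw [show (fun x : ℝ => q.eval (x^2)) = (fun x => q.eval x) ∘ fun x => x ^ 2 from rfl, hd.deriv]
    have := hder _ (hsq t (hIcc t ht))
    norm_num
    nlinarith [ht.1, mul_nonpos_of_nonpos_of_nonneg (this.trans (by linarith : -e ≤ 0)) ht.1]
  · have := hanti _ (hsq t (hIcc t ht))
    simp only [ne_eq, OfNat.ofNat_ne_zero, not_false_eq_true, zero_pow]
    nlinarith [sq_nonneg t]
  · rw [hψe t (hIcc t ht)]
    simp only [neg_sq, ne_eq, OfNat.ofNat_ne_zero, not_false_eq_true, zero_pow]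
    rw [hqR,
      mul_div_assoc, Real.sqrt_mul (sq_nonneg t), Real.sqrt_sq ht.1]
    ring
  · have hs := hsq t (hIcc t ht)
    have key : p.eval (t^2) = bernsteinApproximation N G ⟨t^2, hs⟩ := by
      simp only [hp, bpoly, Polynomial.eval_finsetSum, Polynomial.eval_smul, smul_eq_mul,
        bernsteinApproximation.apply, Finset.sum_range]
      refine Finset.sum_congr rfl fun k _ => ?_
      rw [mul_comm]
      rfl
    have h1 := ((bernsteinApproximation N G - G).norm_coe_le_norm ⟨t^2, hs⟩).trans_lt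
      (by rwa [← dist_eq_norm])
    have hgv : G ⟨t^2, hs⟩ = g t := by simp [G, Real.sqrt_sq ht.1]
    rw [ContinuousMap.sub_apply, Real.norm_eq_abs, hgv, ← key] at h1
    simp only [hq, Polynomial.eval_add, Polynomial.eval_mul, Polynomial.eval_C, Polynomial.eval_sub,
      Polynomial.eval_ofNat, Polynomial.eval_X]
    rw [abs_lt] at h1
    rw [abs_le]
    constructor <;> nlinarith [hs.1, hs.2]

end

end Vale.Agent.P237.Gen.GN
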