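import Vale.Agent.P237.Gen.GN

/-!
The product over all dimensions of the losses of the gradient bound is at least `exp (-1 / 2)`.
-/

namespace Vale.Agent.P237.Gen.GN

open MeasureTheory Set Real
open scoped Interval

noncomputable section

/-- Half the integral of a power of the semicircle. -/
def gnS (k : ℕ) : ℝ := ∫ t in (0:ℝ)..1, √(1 - t ^ 2) ^ k

/-- The loss in one dimension: the bound of `gn_profile` over the value of the ball. -/
def gnRho (n : ℕ) : ℝ := √(gnC n * gnS n ^ (2 * n - 2) / gnS (n - 1) ^ (2 * n))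

theorem gnS_zero : gnS 0 = 1 := by simp [gnS]

theorem gnS_one : gnS 1 = π / 4 := by
  have hc : Continuous fun t : ℝ => √(1 - t ^ 2) := by fun_prop
  have h1 : ∫ t in (-1:ℝ)..0, √(1 - t ^ 2) = ∫ t in (0:ℝ)..1, √(1 - t ^ 2) := by
    have h := (intervalIntegral.integral_comp_neg (a := (0:ℝ)) (b := 1)
      (fun t : ℝ => √(1 - t ^ 2))).symm
    simp only [neg_zero] at h
    rw [h]
    exact intervalIntegral.integral_congr fun t _ => by simp
  have h2 := intervalIntegral.integral_add_adjacent_intervals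
    (hc.intervalIntegrable (μ := volume) (-1) 0) (hc.intervalIntegrable (μ := volume) 0 1)
  rw [integral_sqrt_one_sub_sq, h1] at h2
  simp only [gnS, pow_one]
  linarith

theorem gnS_step (k : ℕ) : ((k : ℝ) + 3) * gnS (k + 2) = ((k : ℝ) + 2) * gnS k := by
  have hs : ∀ j, Continuous fun t : ℝ => √(1 - t ^ 2) ^ j := fun j => by fun_prop
  have hint := intervalIntegral.integral_eq_sub_of_hasDerivAt_of_le (a := (0:ℝ)) (b := 1)
    (f := fun t => t * √(1 - t ^ 2) ^ (k + 2))
    (f' := fun t => ((k : ℝ) + 3) * √(1 - t ^ 2) ^ (k + 2) - ((k : ℝ) + 2) * √(1 - t ^ 2) ^ k)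
    zero_le_one (continuous_id.mul (hs _)).continuousOn (fun t ht => ?_)
    (((hs _).const_mul _).sub ((hs _).const_mul _) |>.intervalIntegrable _ _)
  · rw [intervalIntegral.integral_sub (((hs _).const_mul _).intervalIntegrable _ _)
      (((hs _).const_mul _).intervalIntegrable _ _), intervalIntegral.integral_const_mul,
      intervalIntegral.integral_const_mul] at hint
    simp at hint
    unfold gnS
    linarith
  · have hpos : 0 < 1 - t ^ 2 := by nlinarith [ht.1, ht.2]
    have h1 : HasDerivAt (fun t : ℝ => √(1 - t ^ 2)) (-t / √(1 - t ^ 2)) t := by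
      have h := ((hasDerivAt_pow 2 t).const_sub 1).sqrt hpos.ne'
      refine h.congr_deriv ?_
      have := (sqrt_pos.2 hpos).ne'
      field_simp
      ring
    refine ((hasDerivAt_id t).mul (h1.fun_pow (k + 2))).congr_deriv ?_
    have hss : √(1 - t ^ 2) ^ 2 = 1 - t ^ 2 := sq_sqrt hpos.le
    have := (sqrt_pos.2 hpos).ne'
    simp only [id, Nat.cast_add, Nat.cast_ofNat, show k + 2 - 1 = k + 1 by omega, pow_succ]
    field_simp
    rw [hss]
    ring

theorem gnS_pos : ∀ k, 0 < gnS k
  | 0 => by simp [gnS_zero]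
  | 1 => by rw [gnS_one]; positivity
  | k + 2 => by
    have h := gnS_step k
    have := gnS_pos k
    have h2 : 0 < ((k : ℝ) + 3) * gnS (k + 2) := by rw [h]; positivity
    exact pos_of_mul_pos_right h2 (by positivity)

theorem gnS_mul_succ (k : ℕ) : gnS (k + 1) * gnS k = π / (2 * ((k : ℝ) + 2)) := by
  induction k with
  | zero => rw [gnS_one, gnS_zero]; ring
  | succ k ih =>
    have h := gnS_step k
    have : gnS (k + 2) = ((k : ℝ) + 2) / ((k : ℝ) + 3) * gnS k := by
      rw [div_mul_eq_mul_div, eq_div_iff (by positivity)]; linarith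
    rw [show k + 1 + 1 = k + 2 from rfl, this, mul_assoc, mul_comm (gnS k), ih]
    push_cast
    field_simp
    ring

theorem gnS_succ_le (k : ℕ) : gnS (k + 1) ≤ gnS k := by
  refine intervalIntegral.integral_mono_on zero_le_one
    ((by fun_prop : Continuous fun t : ℝ => √(1 - t ^ 2) ^ (k + 1)).intervalIntegrable _ _)
    ((by fun_prop : Continuous fun t : ℝ => √(1 - t ^ 2) ^ k).intervalIntegrable _ _) fun t _ => ?_
  exact pow_le_pow_of_le_one (sqrt_nonneg _) (sqrt_le_one.2 (by nlinarith)) (Nat.le_succ k)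

/-- The correction in the lower bound of `gnS k ^ 2`. -/
def gnPhi (x : ℝ) : ℝ := x + 1 / (8 * x)

theorem gnS_sq_step (k : ℕ) :
    gnS (k + 2) ^ 2 * gnPhi ((k : ℝ) + 2 + 3 / 2) ≤ gnS k ^ 2 * gnPhi ((k : ℝ) + 3 / 2) := by
  have h := gnS_step k
  have e : gnS (k + 2) = ((k : ℝ) + 2) / ((k : ℝ) + 3) * gnS k := by
    rw [div_mul_eq_mul_div, eq_div_iff (by positivity)]; linarith
  rw [e, mul_pow, div_pow, gnPhi, gnPhi, mul_comm _ (gnS k ^ 2), mul_assoc]
  refine mul_le_mul_of_nonneg_left ?_ (sq_nonneg _)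
  obtain ⟨x, hx, hx'⟩ : ∃ x : ℝ, 0 < x ∧ (k : ℝ) + 3 / 2 = x := ⟨_, by positivity, rfl⟩
  rw [hx', show (k : ℝ) + 2 + 3 / 2 = x + 2 by linarith, show (k : ℝ) + 2 = x + 1 / 2 by linarith,
    show (k : ℝ) + 3 = x + 3 / 2 by linarith, div_mul_eq_mul_div, div_le_iff₀ (by positivity)]
  field_simp
  nlinarith

/-- The sharp lower bound for the integrals of powers of the semicircle. -/
theorem gnS_sq_ge (k : ℕ) : π / 2 ≤ gnS k ^ 2 * gnPhi ((k : ℝ) + 3 / 2) := by
  have hj : ∀ j : ℕ, gnS (k + 2 * j) ^ 2 * gnPhi (((k + 2 * j : ℕ) : ℝ) + 3 / 2) ≤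
      gnS k ^ 2 * gnPhi ((k : ℝ) + 3 / 2) := by
    intro j
    induction j with
    | zero => simp
    | succ j ih =>
      refine le_trans (le_of_eq ?_) ((gnS_sq_step (k + 2 * j)).trans ih)
      rw [show k + 2 * (j + 1) = k + 2 * j + 2 by ring]
      push_cast
      ring_nf
  have hlow : ∀ m : ℕ, π / 2 * (1 - 1 / ((m : ℝ) + 2)) ≤ gnS m ^ 2 * gnPhi ((m : ℝ) + 3 / 2) := by
    intro m
    have h1 : π / (2 * ((m : ℝ) + 2)) ≤ gnS m ^ 2 := by
      rw [← gnS_mul_succ, sq]
      exact mul_le_mul_of_nonneg_right (gnS_succ_le m) (gnS_pos m).le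
    have h2 : (m : ℝ) + 3 / 2 ≤ gnPhi ((m : ℝ) + 3 / 2) := le_add_of_nonneg_right (by positivity)
    refine le_trans ?_ (mul_le_mul h1 h2 (by positivity) (sq_nonneg _))
    rw [one_sub_div (by positivity), div_mul_div_comm, div_mul_eq_mul_div]
    refine div_le_div_of_nonneg_right ?_ (by positivity)
    nlinarith [pi_pos]
  by_contra hlt
  push Not at hlt
  obtain ⟨j, hj'⟩ := exists_nat_gt (π / (π / 2 - gnS k ^ 2 * gnPhi ((k : ℝ) + 3 / 2)))
  rw [div_lt_iff₀ (sub_pos.2 hlt)] at hj'
  have h := (hlow (k + 2 * j)).trans (hj j)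
  have hd : π / 2 / (((k + 2 * j : ℕ) : ℝ) + 2) * ((j : ℝ)) ≤ π / 2 := by
    rw [div_mul_eq_mul_div, div_le_iff₀ (by positivity)]
    push_cast
    nlinarith [pi_pos, (Nat.cast_nonneg k : (0:ℝ) ≤ k), (Nat.cast_nonneg j : (0:ℝ) ≤ j)]
  rw [mul_sub, mul_one, mul_one_div] at h
  nlinarith [pi_pos, (Nat.cast_nonneg j : (0:ℝ) ≤ j)]

theorem gnB_two : gnB 2 = π / 8 := by
  have e : ∀ y : ℝ, y ∈ [[(0:ℝ), 1]] →
      √(1 - y) * √y * y ^ (2 - 2) = 1 / 2 * √(1 - (2 * y - 1) ^ 2) := by
    intro y hy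
    rw [uIcc_of_le zero_le_one] at hy
    rw [show (2 : ℕ) - 2 = 0 from rfl, pow_zero, mul_one,
      show 1 - (2 * y - 1) ^ 2 = 2 ^ 2 * ((1 - y) * y) by ring, sqrt_mul (by norm_num),
      sqrt_sq (by norm_num), sqrt_mul (by linarith [hy.2])]
    ring
  rw [gnB, intervalIntegral.integral_congr e, intervalIntegral.integral_const_mul,
    intervalIntegral.integral_comp_mul_sub (fun u => √(1 - u ^ 2)) two_ne_zero]
  norm_num [integral_sqrt_one_sub_sq]
  ring

theorem gnB_step (j : ℕ) : ((j : ℝ) + 3) * gnB (j + 3) = ((j : ℝ) + 3 / 2) * gnB (j + 2) := by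
  have hs : ∀ i, Continuous fun y : ℝ => √(1 - y) * √y * y ^ i := fun i => by fun_prop
  have hint := intervalIntegral.integral_eq_sub_of_hasDerivAt_of_le (a := (0:ℝ)) (b := 1)
    (f := fun y => (1 - y) * √(1 - y) * (y * √y * y ^ j))
    (f' := fun y => ((j : ℝ) + 3 / 2) * (√(1 - y) * √y * y ^ j) -
      ((j : ℝ) + 3) * (√(1 - y) * √y * y ^ (j + 1)))
    zero_le_one (Continuous.continuousOn (by fun_prop)) (fun y hy => ?_)
    (((hs _).const_mul _).sub ((hs _).const_mul _) |>.intervalIntegrable _ _)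
  · rw [intervalIntegral.integral_sub (((hs _).const_mul _).intervalIntegrable _ _)
      (((hs _).const_mul _).intervalIntegrable _ _), intervalIntegral.integral_const_mul,
      intervalIntegral.integral_const_mul] at hint
    simp at hint
    simp only [gnB, show j + 3 - 2 = j + 1 from rfl, show j + 2 - 2 = j from rfl]
    linarith
  · have h0 : 0 < 1 - y := by linarith [hy.2]
    have hy0 : 0 < y := hy.1
    have a1 : HasDerivAt (fun y : ℝ => (1 - y) * √(1 - y)) (-(3 / 2) * √(1 - y)) y := by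
      refine (((hasDerivAt_id y).const_sub 1).mul
        (((hasDerivAt_id y).const_sub 1).sqrt h0.ne')).congr_deriv ?_
      have := (sqrt_pos.2 h0).ne'
      simp only [id]
      field_simp
      rw [sq_sqrt h0.le]
      ring
    have a2 : HasDerivAt (fun y : ℝ => y * √y * y ^ j) (((j : ℝ) + 3 / 2) * √y * y ^ j) y := by
      refine (((hasDerivAt_id y).mul ((hasDerivAt_id y).sqrt hy0.ne')).mul
        (hasDerivAt_pow j y)).congr_deriv ?_
      have := (sqrt_pos.2 hy0).ne'
      rcases j with - | i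
      · simp only [id, Pi.mul_apply, Nat.cast_zero, pow_zero]
        field_simp
        rw [sq_sqrt hy0.le]
        ring
      · simp only [id, Pi.mul_apply, Nat.add_sub_cancel, pow_succ]
        field_simp
        rw [sq_sqrt hy0.le]
        push_cast
        ring
    refine (a1.mul a2).congr_deriv ?_
    have := sq_sqrt h0.le
    rw [pow_succ]
    ring

theorem gnB_eq (m : ℕ) : gnB (m + 2) = gnS (2 * m + 1) / ((m : ℝ) + 2) := by
  induction m with
  | zero => rw [gnB_two, gnS_one]; norm_num; ring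
  | succ m ih =>
    have h1 := gnB_step m
    have h2 := gnS_step (2 * m + 1)
    rw [ih] at h1
    rw [show 2 * (m + 1) + 1 = 2 * m + 1 + 2 by ring, show m + 1 + 2 = m + 3 by ring]
    push_cast at h2 ⊢
    rw [eq_div_iff (by positivity)]
    field_simp at h1
    nlinarith

theorem two_mul_log_gnS_ge (k : ℕ) :
    log π - log 2 - log (gnPhi ((k : ℝ) + 3 / 2)) ≤ 2 * log (gnS k) := by
  have hφ : 0 < gnPhi ((k : ℝ) + 3 / 2) := by unfold gnPhi; positivity
  have h := log_le_log (by positivity) (gnS_sq_ge k)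
  rw [log_mul (pow_pos (gnS_pos k) 2).ne' hφ.ne', log_pow, log_div pi_ne_zero two_ne_zero] at h
  push_cast at h
  linarith

theorem two_mul_sub_div_le_log {p q : ℝ} (hq : 0 < q) (hpq : q ≤ p) :
    2 * (p - q) / (p + q) ≤ log p - log q := by
  have h := le_log_one_add_of_nonneg (x := (p - q) / q) (div_nonneg (by linarith) hq.le)
  rw [show 1 + (p - q) / q = p / q by field_simp; ring, log_div (hq.trans_le hpq).ne' hq.ne'] at h
  refine le_trans (le_of_eq ?_) h
  have h3 : (p - q) / q + 2 = (p + q) / q := by field_simp; ring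
  rw [h3, mul_div_assoc' 2 (p - q) q, div_div_div_cancel_right₀ hq.ne']

theorem log_le_half_sub_inv {A : ℝ} (hA : 1 ≤ A) : log A ≤ (A - A⁻¹) / 2 := by
  rw [← sinh_log (by linarith)]
  exact self_le_sinh_iff.2 (log_nonneg hA)

/-- The rational inequality behind the bound on one dimension. -/
theorem rational_ineq {x : ℝ} (hx : 0 ≤ x) :
    -((3 / 2) / ((x + 3 / 2) * (x + 5 / 2))) ≤
      2 * ((16 * x + 20) * (2 * x + 3) * (x + 3) - (x + 2) * (8 * (2 * x + 5 / 2) ^ 2 + 1)) /
          ((16 * x + 20) * (2 * x + 3) * (x + 3) + (x + 2) * (8 * (2 * x + 5 / 2) ^ 2 + 1)) -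
        (x + 2) * (4 * x + 5) / ((2 * x + 3) * (2 * x + 2)) +
        (2 * x + 3) * (2 * ((8 * x + 28) * (x + 3) ^ 2 - (x + 2) * (8 * (x + 7 / 2) ^ 2 + 1))) /
          ((8 * x + 28) * (x + 3) ^ 2 + (x + 2) * (8 * (x + 7 / 2) ^ 2 + 1)) := by
  rw [← sub_nonneg, sub_neg_eq_add, div_sub_div _ _ (by positivity) (by positivity),
    div_add_div _ _ (by positivity) (by positivity), div_add_div _ _ (by positivity) (by positivity)]
  refine div_nonneg ?_ (by positivity)
  ring_nf
  positivity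

theorem two_mul_log_gnRho_ge (m : ℕ) :
    -((3 / 2) / (((m : ℝ) + 3 / 2) * ((m : ℝ) + 5 / 2))) ≤ 2 * log (gnRho (m + 2)) := by
  set x : ℝ := (m : ℝ) with hxdef
  have hx : 0 ≤ x := Nat.cast_nonneg m
  have hB := gnB_eq m
  have hSb := gnS_pos (2 * m + 1)
  have hSn := gnS_pos (m + 2)
  have hSp := gnS_pos (m + 1)
  have hrho : 0 < gnC (m + 2) * gnS (m + 2) ^ (2 * (m + 2) - 2) /
      gnS (m + 2 - 1) ^ (2 * (m + 2)) := by
    simp only [gnC, hB, show m + 2 - 1 = m + 1 from rfl]
    push_cast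
    rw [show x + 2 - 1 = x + 1 by ring, show 2 * (x + 2) - 1 = 2 * x + 3 by ring]
    positivity
  rw [gnRho, log_sqrt hrho.le]
  simp only [gnC, hB, show m + 2 - 1 = m + 1 from rfl]
  push_cast
  rw [show x + 2 - 1 = x + 1 by ring, show 2 * (x + 2) - 1 = 2 * x + 3 by ring,
    show x + 2 + 1 = x + 3 by ring, show 2 * (m + 2) - 2 = 2 * m + 2 by omega,
    show 2 * (m + 2) - 1 = 2 * m + 3 by omega]
  have key : log (((x + 1) / (x + 2) * (2 * (x + 2) / (2 * x + 3))) ^ (2 * (m + 2)) * (2 * x + 3) *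
      ((x + 3) / (x + 2)) ^ (2 * m + 3) * (gnS (2 * m + 1) / (x + 2)) ^ 2 * (x + 2) *
      gnS (m + 2) ^ (2 * m + 2) / gnS (m + 1) ^ (2 * (m + 2))) =
      2 * (x + 2) * (log (2 * x + 2) - log (2 * x + 3)) + log (2 * x + 3) +
      (2 * x + 3) * (log (x + 3) - log (x + 2)) + 2 * (log (gnS (2 * m + 1)) - log (x + 2)) +
      log (x + 2) + (2 * x + 2) * log (gnS (m + 2)) - 2 * (x + 2) * log (gnS (m + 1)) := by
    rw [show (x + 1) / (x + 2) * (2 * (x + 2) / (2 * x + 3)) = (2 * x + 2) / (2 * x + 3) by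
      field_simp]
    rw [log_div (by positivity) (by positivity), log_mul (by positivity) (by positivity),
      log_mul (by positivity) (by positivity), log_mul (by positivity) (by positivity),
      log_mul (by positivity) (by positivity), log_mul (by positivity) (by positivity),
      log_pow, log_pow, log_pow, log_pow, log_pow, log_div (by positivity) (by positivity),
      log_div (by positivity) (by positivity), log_div (by positivity) (by positivity)]
    push_cast
    ring
  rw [key]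
  have hmul : log (gnS (m + 2)) + log (gnS (m + 1)) = log π - log 2 - log (x + 3) := by
    rw [← log_mul hSn.ne' hSp.ne', gnS_mul_succ]
    push_cast
    rw [show x + 1 + 2 = x + 3 by ring, log_div pi_ne_zero (by positivity),
      log_mul two_ne_zero (by positivity)]
    ring
  have hsp : log (gnS (m + 1)) = log π - log 2 - log (x + 3) - log (gnS (m + 2)) := by linarith
  have s1 := two_mul_log_gnS_ge (2 * m + 1)
  have s2 := two_mul_log_gnS_ge (m + 2)
  have e1 : gnPhi (((2 * m + 1 : ℕ) : ℝ) + 3 / 2) =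
      (8 * (2 * x + 5 / 2) ^ 2 + 1) / (16 * x + 20) := by
    rw [gnPhi]; push_cast; rw [← hxdef, show 2 * x + 1 + 3 / 2 = 2 * x + 5 / 2 by ring]; field_simp; ring
  have e2 : gnPhi (((m + 2 : ℕ) : ℝ) + 3 / 2) =
      (8 * (x + 7 / 2) ^ 2 + 1) / (8 * x + 28) := by
    rw [gnPhi]; push_cast; rw [← hxdef, show x + 2 + 3 / 2 = x + 7 / 2 by ring]; field_simp; ring
  rw [e1, log_div (by positivity) (by positivity)] at s1
  rw [e2, log_div (by positivity) (by positivity)] at s2
  have l1 := two_mul_sub_div_le_log (p := (16 * x + 20) * (2 * x + 3) * (x + 3))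
    (q := (x + 2) * (8 * (2 * x + 5 / 2) ^ 2 + 1)) (by positivity) (by nlinarith [sq_nonneg x])
  have l2 := two_mul_sub_div_le_log (p := (8 * x + 28) * (x + 3) ^ 2)
    (q := (x + 2) * (8 * (x + 7 / 2) ^ 2 + 1)) (by positivity) (by nlinarith [sq_nonneg x])
  rw [log_mul (by positivity) (by positivity), log_mul (by positivity) (by positivity),
    log_mul (by positivity) (by positivity)] at l1
  rw [log_mul (by positivity) (by positivity), log_mul (by positivity) (by positivity),
    log_pow] at l2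
  push_cast at l2
  have l3 := log_le_half_sub_inv (A := (2 * x + 3) / (2 * x + 2))
    ((one_le_div (by positivity)).2 (by linarith))
  rw [log_div (by positivity) (by positivity), inv_div,
    div_sub_div _ _ (by positivity) (by positivity)] at l3
  have l3' := mul_le_mul_of_nonneg_left l3 (by positivity : 0 ≤ 2 * (x + 2))
  have e3 : 2 * (x + 2) *
      (((2 * x + 3) * (2 * x + 3) - (2 * x + 2) * (2 * x + 2)) / ((2 * x + 2) * (2 * x + 3)) / 2) =
      (x + 2) * (4 * x + 5) / ((2 * x + 3) * (2 * x + 2)) := by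
    field_simp; ring
  rw [e3] at l3'
  have l2' := mul_le_mul_of_nonneg_left l2 (by positivity : 0 ≤ 2 * x + 3)
  rw [← mul_div_assoc] at l2'
  have s2' := mul_le_mul_of_nonneg_left s2 (by positivity : 0 ≤ 2 * x + 3)
  have hr := rational_ineq hx
  rw [hsp]
  linarith

/-- **The losses of all dimensions together are at most `exp (1 / 2)`.** -/
theorem exp_neg_half_le_prod_gnRho (N : ℕ) :
    exp (-(1 / 2)) ≤ ∏ n ∈ Finset.Ico 2 N, gnRho n := by
  have key : ∀ m : ℕ, (∀ i < m, 0 < gnRho (i + 2)) →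
      -(3 / 4) * (2 / 3 - 1 / ((m : ℝ) + 3 / 2)) ≤ ∑ i ∈ Finset.range m, log (gnRho (i + 2)) := by
    intro m
    induction m with
    | zero => intro _; norm_num
    | succ m ih =>
      intro h
      rw [Finset.sum_range_succ]
      have h1 := ih fun i hi => h i (Nat.lt_succ_of_lt hi)
      have h2 := two_mul_log_gnRho_ge m
      have e : (3 / 2 : ℝ) / (((m : ℝ) + 3 / 2) * ((m : ℝ) + 5 / 2)) =
          3 / 2 * (1 / ((m : ℝ) + 3 / 2) - 1 / ((m : ℝ) + 5 / 2)) := by
        field_simp; ring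
      rw [e] at h2
      push_cast
      rw [show (m : ℝ) + 1 + 3 / 2 = (m : ℝ) + 5 / 2 by ring]
      linarith
  have hpos : ∀ i, 0 < gnRho (i + 2) := by
    intro i
    have hB := gnB_eq i
    have := gnS_pos (2 * i + 1)
    have := gnS_pos (i + 2)
    have := gnS_pos (i + 1)
    simp only [gnRho, gnC, hB, show i + 2 - 1 = i + 1 from rfl]
    push_cast
    rw [show (i : ℝ) + 2 - 1 = (i : ℝ) + 1 by ring,
      show 2 * ((i : ℝ) + 2) - 1 = 2 * (i : ℝ) + 3 by ring]
    positivity
  rcases le_or_gt N 2 with hN | hN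
  · rw [Finset.Ico_eq_empty (by omega), Finset.prod_empty]
    exact exp_le_one_iff.2 (by norm_num)
  obtain ⟨m, rfl⟩ := Nat.exists_eq_add_of_le hN.le
  rw [Finset.prod_Ico_eq_prod_range, show 2 + m - 2 = m by omega]
  simp only [add_comm 2]
  rw [← exp_log (Finset.prod_pos fun i _ => hpos i), log_prod fun i _ => (hpos i).ne']
  refine exp_le_exp.2 (le_trans ?_ (key m fun i _ => hpos i))
  have : 0 ≤ 1 / ((m : ℝ) + 3 / 2) := by positivity
  linarith

/-- The losses of all dimensions together are at most a factor `2`. -/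
theorem half_le_prod_gnRho (N : ℕ) : (1 / 2 : ℝ) ≤ ∏ n ∈ Finset.Ico 2 N, gnRho n := by
  refine le_trans ?_ (exp_neg_half_le_prod_gnRho N)
  linarith [add_one_le_exp (-(1 / 2) : ℝ)]

end

end Vale.Agent.P237.Gen.GN
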