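import Vale.Agent.P237.Gen.Contact
import Vale.Agent.P237.Gen.Euclid
import Vale.Agent.P237.Gen.GN
import Vale.Agent.P237.Gen.GN.Const

/-!
Petty's inequality in every dimension up to an absolute constant: the gradient constraint at a
John contact, the one-variable inequality and the induction on the dimension.
-/

namespace Vale.Agent.P237.Gen.GN

open MeasureTheory Set Finset
open Contact (pw semi Adm GradOK testQ)

noncomputable section

/-- Petty's inequality from contact bounds with losses `ρ`. -/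
theorem petty_of_contact {ρ : ℕ → ℝ} (hρ : ∀ n, 2 ≤ n → 0 < ρ n)
    (hcon : ∀ n, 2 ≤ n → ContactBound n (pcN (n + 1) / pcN n * ρ n)) (N : ℕ) (hN : 2 ≤ N) :
    ∀ S : Set (Fin N → ℝ), IsCompact S → Convex ℝ S →
      pcN N * (∏ n ∈ Finset.Ico 2 N, ρ n) * volume.real S ^ (N - 1) ≤
        volume.real (AllN.piSet S) := by
  induction N, hN using Nat.le_induction with
  | base =>
    intro S hS hc
    rw [pcN_two, Finset.Ico_self, Finset.prod_empty, mul_one]
    exact AllN.four_mul_le_piSet hS hc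
  | succ n hn ih =>
    intro S hS hc
    have hP : 0 < ∏ k ∈ Finset.Ico 2 n, ρ k :=
      Finset.prod_pos fun k hk => hρ k (Finset.mem_Ico.1 hk).1
    have hstep := pz_step hn (mul_pos (pcN_pos n) hP) ih (hcon n hn)
    have e : pcN n * (∏ k ∈ Finset.Ico 2 n, ρ k) * (pcN (n + 1) / pcN n * ρ n) =
        pcN (n + 1) * ∏ k ∈ Finset.Ico 2 (n + 1), ρ k := by
      rw [Finset.prod_Ico_succ_top hn]
      field_simp [(pcN_pos n).ne']
    rw [e] at hstep
    refine Every.piSet_le_of_zon (by omega) ?_ hstep hS hc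
    exact (mul_pos (pcN_pos _)
      (Finset.prod_pos fun k hk => hρ k (Finset.mem_Ico.1 hk).1)).le

theorem gnS_eq_pw (k : ℕ) : gnS k = pw k semi := rfl

theorem gnC_pos {n : ℕ} (hn : 2 ≤ n) : 0 < gnC n := by
  obtain ⟨m, rfl⟩ : ∃ m, n = m + 2 := ⟨n - 2, by omega⟩
  rw [gnC, gnB_eq]
  have h := gnS_pos (2 * m + 1)
  have h1 : (1 : ℝ) < ((m + 2 : ℕ) : ℝ) := by exact_mod_cast (by omega : 1 < m + 2)
  have h2 : (0 : ℝ) < ((m + 2 : ℕ) : ℝ) - 1 := by linarith
  have h3 : (0 : ℝ) < 2 * ((m + 2 : ℕ) : ℝ) - 1 := by linarith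
  positivity

theorem gnRho_pos {n : ℕ} (hn : 2 ≤ n) : 0 < gnRho n := by
  have := gnC_pos hn
  have := gnS_pos n
  have := gnS_pos (n - 1)
  exact Real.sqrt_pos.2 (by positivity)

/-- The contact bound with loss `gnRho n`. -/
theorem contactBound_gn {n : ℕ} (hn : 2 ≤ n) :
    ContactBound n (pcN (n + 1) / pcN n * gnRho n) := by
  refine contactBound_of_grad hn fun f hf hW hQ => ?_
  have h0 : ∀ t ∈ Set.Icc (0:ℝ) 1, 0 ≤ f t := fun t ht => (Real.sqrt_nonneg _).trans (hf.ge t ht)
  have h := gn_profile hn hf.cont hf.anti h0 hW hQ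
  have hG : 0 ≤ pw (n - 1) f :=
    intervalIntegral.integral_nonneg zero_le_one fun t ht => pow_nonneg (h0 t ht) _
  have hS := gnS_pos n
  have hS1 := gnS_pos (n - 1)
  have hC := gnC_pos hn
  rw [Contact.pcN_ratio hn, ← gnS_eq_pw, ← gnS_eq_pw]
  refine (pow_le_pow_iff_left₀ ?_ (by positivity) two_ne_zero).1 ?_
  · have := gnRho_pos hn
    positivity
  rw [mul_pow, mul_pow, mul_pow, gnRho, Real.sq_sqrt (by positivity), div_pow, mul_pow,
    ← pow_mul, ← pow_mul, ← pow_mul, ← pow_mul, mul_comm n 2, mul_comm (n - 1) 2, Nat.mul_sub, mul_one]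
  calc 2 ^ 2 * gnS (n - 1) ^ (2 * n) / gnS n ^ (2 * n - 2) *
        (gnC n * gnS n ^ (2 * n - 2) / gnS (n - 1) ^ (2 * n)) * pw n f ^ (2 * n - 2)
      = 2 ^ 2 * (gnC n * pw n f ^ (2 * n - 2)) := by field_simp
    _ ≤ 2 ^ 2 * pw (n - 1) f ^ (2 * n) := mul_le_mul_of_nonneg_left h (by norm_num)

/-- Petty's inequality in coordinates up to the factor `exp (-1/2)`. -/
theorem petty_piSet (N : ℕ) (hN : 2 ≤ N) (S : Set (Fin N → ℝ)) (hS : IsCompact S)
    (hc : Convex ℝ S) :
    Real.exp (-(1 / 2)) * pcN N * volume.real S ^ (N - 1) ≤ volume.real (AllN.piSet S) := by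
  refine le_trans ?_ (petty_of_contact (fun n hn => gnRho_pos hn) (fun n hn => contactBound_gn hn)
    N hN S hS hc)
  rw [mul_comm (Real.exp _)]
  exact mul_le_mul_of_nonneg_right
    (mul_le_mul_of_nonneg_left (exp_neg_half_le_prod_gnRho N) (pcN_pos N).le)
    (pow_nonneg measureReal_nonneg _)

/-- **Petty's inequality up to an absolute constant** in Euclidean space. -/
theorem petty_projBody {n : ℕ} (hn : 1 ≤ n) {K : Set (EuclideanSpace ℝ (Fin (n + 1)))}
    (hc : Convex ℝ K) (hk : IsCompact K) :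
    Real.exp (-(1 / 2)) * pcN (n + 1) * volume.real K ^ n ≤ volume.real (projBody K) := by
  have hk' : IsCompact (WithLp.ofLp '' K) := hk.image (PiLp.continuous_ofLp 2 _)
  have hc' : Convex ℝ (WithLp.ofLp '' K) :=
    hc.linear_image (WithLp.linearEquiv 2 ℝ (Fin (n + 1) → ℝ)).toLinearMap
  have h := petty_piSet (n + 1) (by omega) (WithLp.ofLp '' K) hk' hc'
  have hvK : volume.real (WithLp.ofLp '' K) = volume.real K := by
    have e : K = WithLp.ofLp ⁻¹' (WithLp.ofLp '' K) :=
      (preimage_image_eq K (WithLp.ofLp_injective 2)).symm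
    conv_rhs => rw [e]
    rw [measureReal_def, measureReal_def,
      (PiLp.volume_preserving_ofLp (Fin (n + 1))).measure_preimage
        hk'.measurableSet.nullMeasurableSet]
  rw [hvK, Nat.add_sub_cancel] at h
  rw [projBody_eq hc hk, measureReal_def (s := WithLp.ofLp ⁻¹' _),
    (PiLp.volume_preserving_ofLp (Fin (n + 1))).measure_preimage
      (show IsCompact (AllN.piSet (WithLp.ofLp '' K)) from
        AllN.isCompact_sub _).measurableSet.nullMeasurableSet, ← measureReal_def]
  exact h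

end

end Vale.Agent.P237.Gen.GN
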