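import Mathlib

/-!
The calibration for a smooth profile: an explicit family of test functions.
-/

namespace Vale.Agent.P237.Gen.GN

open MeasureTheory Set Filter
open scoped Topology

noncomputable section

/-- The coefficient of `F ^ n` in the test functional. -/
def coef (n : ℕ) (p q : ℝ → ℝ) (t : ℝ) : ℝ :=
  2 * q t - ((n : ℝ) + 1) * p t ^ 2 - 2 * t * p t * q t

/-- The calibration field, regularised at zero height. -/
def fld (δ M y : ℝ) : ℝ := Real.sqrt ((M - y) / (y + δ))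

theorem fld_continuousOn {δ : ℝ} (hδ : 0 < δ) (M : ℝ) : ContinuousOn (fld δ M) (Ici 0) :=
  Real.continuous_sqrt.comp_continuousOn
    ((continuousOn_const.sub continuousOn_id).div (continuousOn_id.add continuousOn_const)
      fun y hy => by have : (0:ℝ) ≤ y := hy; show y + δ ≠ 0; positivity)

theorem tendsto_pow_kernel {g : ℝ → ℝ} (hg : Continuous g) :
    Tendsto (fun j : ℕ => ∫ t in (0:ℝ)..1, ((j:ℝ) + 1) * t ^ j * g t) atTop (𝓝 (g 1)) := by
  obtain ⟨C, hC⟩ := isCompact_Icc.exists_bound_of_continuousOn hg.continuousOn (s := Icc (0:ℝ) 1)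
  rw [Metric.tendsto_atTop]
  intro ε hε
  obtain ⟨d, hd, hdε⟩ := Metric.continuousAt_iff.1 (hg.continuousAt (x := 1)) (ε/2) (half_pos hε)
  set r := max 0 (1 - d/2) with hr
  have hr0 : 0 ≤ r := le_max_left _ _
  have hr1 : r < 1 := max_lt zero_lt_one (by linarith)
  have hlim : Tendsto (fun j : ℕ => (2*C) * (((j:ℝ) + 1) * r ^ j)) atTop (𝓝 0) := by
    have h1 := tendsto_self_mul_const_pow_of_lt_one hr0 hr1
    have h2 := tendsto_pow_atTop_nhds_zero_of_lt_one hr0 hr1
    simpa [add_mul] using (h1.add h2).const_mul (2*C)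
  obtain ⟨N, hN⟩ := eventually_atTop.1 (hlim.eventually (gt_mem_nhds (half_pos hε)))
  refine ⟨N, fun j hj => ?_⟩
  have hk : ∫ t in (0:ℝ)..1, ((j:ℝ) + 1) * t ^ j = 1 := by
    rw [intervalIntegral.integral_const_mul, integral_pow]
    simp
    field_simp
  have hbound : ∀ t ∈ Icc (0:ℝ) 1, |((j:ℝ) + 1) * t ^ j * (g t - g 1)| ≤
      ((j:ℝ) + 1) * t ^ j * (ε/2) + 2 * C * (((j:ℝ) + 1) * r ^ j) := by
    intro t ht
    have hC0 : 0 ≤ C := (norm_nonneg _).trans (hC 1 (right_mem_Icc.2 zero_le_one))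
    have hw : 0 ≤ ((j:ℝ) + 1) * t ^ j := mul_nonneg (by positivity) (pow_nonneg ht.1 _)
    rw [abs_mul, abs_of_nonneg hw]
    rcases le_or_gt t r with h | h
    · have h1 : |g t - g 1| ≤ 2 * C := by
        have a := hC t ht
        have b := hC 1 (right_mem_Icc.2 zero_le_one)
        rw [Real.norm_eq_abs] at a b
        exact (abs_sub _ _).trans (by linarith)
      calc ((j:ℝ) + 1) * t ^ j * |g t - g 1| ≤ ((j:ℝ) + 1) * r ^ j * (2 * C) :=
            mul_le_mul (mul_le_mul_of_nonneg_left (pow_le_pow_left₀ ht.1 h _) (by positivity)) h1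
              (abs_nonneg _) (by positivity)
        _ ≤ _ := by nlinarith
    · have h1 : |g t - g 1| ≤ ε/2 := by
        have : dist t 1 < d := by
          rw [Real.dist_eq, abs_sub_lt_iff]
          constructor
          · linarith [ht.2]
          · linarith [le_max_right (0:ℝ) (1 - d/2)]
        exact (le_of_lt (by simpa [Real.dist_eq] using hdε this))
      calc ((j:ℝ) + 1) * t ^ j * |g t - g 1| ≤ ((j:ℝ) + 1) * t ^ j * (ε/2) :=
            mul_le_mul_of_nonneg_left h1 hw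
        _ ≤ _ := le_add_of_nonneg_right (by positivity)
  have hc1 : Continuous fun t : ℝ => ((j:ℝ) + 1) * t ^ j * (g t - g 1) := by fun_prop
  have hc2 : Continuous fun t : ℝ => ((j:ℝ) + 1) * t ^ j * (ε/2) := by fun_prop
  have e : (∫ t in (0:ℝ)..1, ((j:ℝ) + 1) * t ^ j * g t) - g 1 =
      ∫ t in (0:ℝ)..1, ((j:ℝ) + 1) * t ^ j * (g t - g 1) := by
    simp only [mul_sub]
    rw [intervalIntegral.integral_sub (Continuous.intervalIntegrable (by fun_prop) _ _)
      (Continuous.intervalIntegrable (by fun_prop) _ _), intervalIntegral.integral_mul_const,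
      hk, one_mul]
  rw [Real.dist_eq, e]
  refine (intervalIntegral.abs_integral_le_integral_abs zero_le_one).trans_lt ?_
  refine (intervalIntegral.integral_mono_on zero_le_one (hc1.abs.intervalIntegrable _ _)
    ((hc2.add continuous_const).intervalIntegrable _ _) hbound).trans_lt ?_
  simp only [Pi.add_apply]
  rw [intervalIntegral.integral_add (hc2.intervalIntegrable _ _) intervalIntegrable_const,
    intervalIntegral.integral_mul_const, hk, intervalIntegral.integral_const]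
  simp only [one_mul, sub_zero, smul_eq_mul]
  linarith [hN j hj]

variable {n : ℕ}

/-- The test functional at the field, and with an added jump at the right endpoint. -/
theorem exists_test {F ψ₀ : ℝ → ℝ} (hF : ContDiff ℝ 2 F) (hψ : ContDiff ℝ 2 ψ₀) (lam : ℝ) {ε : ℝ}
    (hε : 0 < ε) :
    ∃ k : ℕ, (∫ t in (0:ℝ)..1, coef n (fun t => lam * ψ₀ t) (fun t => lam * deriv ψ₀ t) t * F t ^ n)
        + (1 - lam * ψ₀ 1) ^ 2 * F 1 ^ n - ε ≤
      ∫ t in (0:ℝ)..1, coef n (fun t => lam * ψ₀ t + (1 - lam * ψ₀ 1) * t ^ (2*k+1))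
        (fun t => lam * deriv ψ₀ t + (1 - lam * ψ₀ 1) * (((2*k:ℕ):ℝ) + 1) * t ^ (2*k)) t * F t ^ n := by
  set c := 1 - lam * ψ₀ 1 with hc
  have hψc := hψ.continuous
  have hdc : Continuous (deriv ψ₀) := hψ.continuous_deriv (by norm_num)
  have hFc := hF.continuous
  set g1 : ℝ → ℝ := fun t => (2 * c - 2 * t * (lam * ψ₀ t) * c) * F t ^ n with hg1
  set g2 : ℝ → ℝ := fun t => (2 * ((n:ℝ) + 1) * (lam * ψ₀ t) * c + 2 * t * (lam * deriv ψ₀ t) * c) *
      F t ^ n with hg2
  set g3 : ℝ → ℝ := fun t => c ^ 2 * F t ^ n with hg3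
  have h1c : Continuous g1 := by fun_prop
  have h2c : Continuous g2 := by fun_prop
  have h3c : Continuous g3 := by fun_prop
  -- dividing a moment by its degree
  have small : ∀ {g : ℝ → ℝ}, Continuous g →
      Tendsto (fun j : ℕ => ∫ t in (0:ℝ)..1, t ^ j * g t) atTop (𝓝 0) := by
    intro g hg
    have h := (tendsto_pow_kernel hg).mul tendsto_one_div_add_atTop_nhds_zero_nat
    rw [mul_zero] at h
    refine h.congr fun j => ?_
    rw [← intervalIntegral.integral_mul_const]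
    refine intervalIntegral.integral_congr fun t _ => ?_
    field_simp
  have m2 : Tendsto (fun k : ℕ => 2 * k) atTop atTop :=
    tendsto_atTop_mono (fun k => by simp only [id_eq]; omega) tendsto_id
  have m4 : Tendsto (fun k : ℕ => 4 * k + 2) atTop atTop :=
    tendsto_atTop_mono (fun k => by simp only [id_eq]; omega) tendsto_id
  have T1 := (tendsto_pow_kernel h1c).comp m2
  have T2 := (small (g := fun t => t * g2 t) (continuous_id.mul h2c)).comp m2
  have T3 := (small (g := g3) h3c).comp m4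
  have T4 := (tendsto_pow_kernel h3c).comp m4
  -- the square of the jump: `(n+1) φ² + 2 t φ φ'`
  set D : ℕ → ℝ := fun k =>
    (∫ t in (0:ℝ)..1, (((2*k:ℕ):ℝ) + 1) * t ^ (2*k) * g1 t) - (∫ t in (0:ℝ)..1, t ^ (2*k) * (t * g2 t))
      - ((n:ℝ) + 1) * (∫ t in (0:ℝ)..1, t ^ (4*k+2) * g3 t)
      - (∫ t in (0:ℝ)..1, (((4*k+2:ℕ):ℝ) + 1) * t ^ (4*k+2) * g3 t)
      + (∫ t in (0:ℝ)..1, t ^ (4*k+2) * g3 t) with hD
  have TD : Tendsto D atTop (𝓝 (g1 1 - 0 - ((n:ℝ) + 1) * 0 - g3 1 + 0)) :=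
    ((((T1.sub T2).sub (T3.const_mul _)).sub T4).add T3)
  have hval : g1 1 - 0 - ((n:ℝ) + 1) * 0 - g3 1 + 0 = c ^ 2 * F 1 ^ n := by
    simp only [hg1, hg3, hc]; ring
  rw [hval] at TD
  obtain ⟨k, hk⟩ := (TD.eventually (lt_mem_nhds (show c ^ 2 * F 1 ^ n - ε < c ^ 2 * F 1 ^ n by
    linarith))).exists
  refine ⟨k, ?_⟩
  have hi : ∀ {g : ℝ → ℝ}, Continuous g → IntervalIntegrable g volume 0 1 := fun h =>
    h.intervalIntegrable _ _
  have e : (∫ t in (0:ℝ)..1, coef n (fun t => lam * ψ₀ t + c * t ^ (2*k+1))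
        (fun t => lam * deriv ψ₀ t + c * (((2*k:ℕ):ℝ) + 1) * t ^ (2*k)) t * F t ^ n) =
      (∫ t in (0:ℝ)..1, coef n (fun t => lam * ψ₀ t) (fun t => lam * deriv ψ₀ t) t * F t ^ n) +
        D k := by
    simp only [hD]
    rw [← intervalIntegral.integral_const_mul, ← intervalIntegral.integral_sub (hi (by fun_prop)) (hi (by fun_prop)),
      ← intervalIntegral.integral_sub (hi (by fun_prop)) (hi (by fun_prop)),
      ← intervalIntegral.integral_sub (hi (by fun_prop)) (hi (by fun_prop)),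
      ← intervalIntegral.integral_add (hi (by fun_prop)) (hi (by fun_prop)),
      ← intervalIntegral.integral_add (hi (by unfold coef; fun_prop)) (hi (by fun_prop))]
    refine intervalIntegral.integral_congr fun t _ => ?_
    simp only [coef, hg1, hg2, hg3]
    push_cast
    ring
  rw [e]
  linarith

/-- Integration by parts against `t`. -/
theorem integral_id_mul_deriv {F : ℝ → ℝ} (hF : ContDiff ℝ 2 F) (k : ℕ) (hk : 1 ≤ k) :
    (∫ t in (0:ℝ)..1, t * (F t ^ (k-1) * deriv F t)) =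
      F 1 ^ k / k - (∫ t in (0:ℝ)..1, F t ^ k) / k := by
  have hFc := hF.continuous
  have hFd : Continuous (deriv F) := hF.continuous_deriv (by norm_num)
  have dF : ∀ t, HasDerivAt F (deriv F t) t := fun t => (hF.differentiable (by norm_num) t).hasDerivAt
  have hi : ∀ {g : ℝ → ℝ}, Continuous g → IntervalIntegrable g volume 0 1 := fun h =>
    h.intervalIntegrable _ _
  have hk0 : (k:ℝ) ≠ 0 := by positivity
  rw [eq_sub_iff_add_eq, ← intervalIntegral.integral_div,
    ← intervalIntegral.integral_add (hi (by fun_prop)) (hi (by fun_prop))]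
  have := intervalIntegral.integral_eq_sub_of_hasDerivAt (a := (0:ℝ)) (b := 1)
    (f := fun t => t * F t ^ k / k) (f' := fun t => t * (F t ^ (k-1) * deriv F t) + F t ^ k / k)
    (fun t _ => (((hasDerivAt_id t).mul ((dF t).fun_pow k)).div_const _).congr_deriv (by
      simp only [id_eq, one_mul]; field_simp; ring)) (hi (by fun_prop))
  simpa using this

/-- The quadratic part of the field. -/
theorem quad_le (hn : 2 ≤ n) {F ψ₀ : ℝ → ℝ} (hF : ContDiff ℝ 2 F) (hψc : Continuous ψ₀) {δ : ℝ}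
    (hδ : 0 < δ) (hF0 : ∀ t ∈ Icc (0:ℝ) 1, 0 ≤ F t) (hF' : ∀ t ∈ Icc (0:ℝ) 1, deriv F t ≤ 0)
    (hFM : ∀ t ∈ Icc (0:ℝ) 1, F t ≤ F 0)
    (hrel : ∀ t ∈ Icc (0:ℝ) 1, ψ₀ t = fld δ (F 0) (F t)) :
    (∫ t in (0:ℝ)..1, ψ₀ t ^ 2 * F t ^ (n-1) * (F t - t * deriv F t)) ≤
      F 0 * (∫ t in (0:ℝ)..1, F t ^ (n-1)) - (∫ t in (0:ℝ)..1, F t ^ n)
        - F 0 * (F 1 ^ (n-1) / ((n:ℝ) - 1) - (∫ t in (0:ℝ)..1, F t ^ (n-1)) / ((n:ℝ) - 1))
        + (F 1 ^ n / (n:ℝ) - (∫ t in (0:ℝ)..1, F t ^ n) / (n:ℝ)) := by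
  have hFc := hF.continuous
  have hFd : Continuous (deriv F) := hF.continuous_deriv (by norm_num)
  have hi : ∀ {g : ℝ → ℝ}, Continuous g → IntervalIntegrable g volume 0 1 := fun h =>
    h.intervalIntegrable _ _
  have e4 := integral_id_mul_deriv hF
  set M := F 0 with hM
  have a := e4 (n-1) (by omega)
  have b := e4 n (by omega)
  rw [Nat.cast_sub (show 1 ≤ n by omega), Nat.cast_one] at a
  rw [← a, ← b, ← intervalIntegral.integral_const_mul, ← intervalIntegral.integral_sub (hi (by fun_prop)) (hi (by fun_prop)),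
    ← intervalIntegral.integral_const_mul, ← intervalIntegral.integral_sub (hi (by fun_prop)) (hi (by fun_prop)),
    ← intervalIntegral.integral_add (hi (by fun_prop)) (hi (by fun_prop))]
  refine intervalIntegral.integral_mono_on zero_le_one (hi (by fun_prop)) (hi (by fun_prop)) ?_
  intro t ht
  obtain ⟨j, rfl⟩ : ∃ j, n = j + 2 := ⟨n - 2, by omega⟩
  have hy := hF0 t ht
  have hp : 0 ≤ F t - t * deriv F t := by nlinarith [ht.1, hF' t ht]
  have key : ψ₀ t ^ 2 * F t ≤ M - F t := by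
    rw [hrel t ht, fld, Real.sq_sqrt (div_nonneg (by linarith [hFM t ht]) (by linarith)),
      div_mul_eq_mul_div, div_le_iff₀ (by linarith)]
    nlinarith [hFM t ht]
  have := mul_le_mul_of_nonneg_left key (mul_nonneg (pow_nonneg hy j) hp)
  simp only [show j + 2 - 1 = j + 1 by omega, show j + 1 - 1 = j by omega]
  calc ψ₀ t ^ 2 * F t ^ (j+1) * (F t - t * deriv F t)
      = F t ^ j * (F t - t * deriv F t) * (ψ₀ t ^ 2 * F t) := by ring
    _ ≤ F t ^ j * (F t - t * deriv F t) * (M - F t) := this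
    _ = _ := by ring

/-- The part of the field below the height at the endpoint is absorbed by the jump. -/
theorem below_le (hn : 2 ≤ n) {δ M x : ℝ} (hδ : 0 < δ) (hx : 0 ≤ x) (hxM : x ≤ M) (lam : ℝ) :
    2 * lam * ((n:ℝ) * ∫ y in (0:ℝ)..x, fld δ M y * y ^ (n-1)) ≤
      x ^ n + lam ^ 2 * ((n:ℝ) * M * x ^ (n-1) / ((n:ℝ) - 1) - x ^ n) := by
  have hn' : (1:ℝ) < n := by exact_mod_cast hn
  have hint1 : IntervalIntegrable (fun y => fld δ M y * y ^ (n-1)) volume 0 x :=
    (((fld_continuousOn hδ M).mul (continuousOn_id.pow _)).mono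
      (by rw [uIcc_of_le hx]; exact Icc_subset_Ici_self)).intervalIntegrable
  obtain ⟨j, rfl⟩ : ∃ j, n = j + 2 := ⟨n - 2, by omega⟩
  have hr : x ^ (j+2) + lam ^ 2 * ((↑(j+2) : ℝ) * M * x ^ (j+2-1) / ((↑(j+2) : ℝ) - 1) - x ^ (j+2)) =
      ∫ y in (0:ℝ)..x, ((↑(j+2) : ℝ) * y ^ (j+1) + lam ^ 2 * (↑(j+2) : ℝ) * (M * y ^ j - y ^ (j+1))) := by
    have h1 : (↑(j+2) : ℝ) ≠ 0 := by positivity
    have h2 : (↑(j+2) : ℝ) - 1 ≠ 0 := (sub_pos.2 hn').ne'
    rw [intervalIntegral.integral_add (Continuous.intervalIntegrable (by fun_prop) _ _)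
      (Continuous.intervalIntegrable (by fun_prop) _ _), intervalIntegral.integral_const_mul,
      intervalIntegral.integral_const_mul, intervalIntegral.integral_sub
        (Continuous.intervalIntegrable (by fun_prop) _ _)
        (Continuous.intervalIntegrable (by fun_prop) _ _),
      intervalIntegral.integral_const_mul, integral_pow, integral_pow]
    simp only [show j + 2 - 1 = j + 1 by omega]
    push_cast at h1 h2 ⊢
    simp only [ne_eq, Nat.add_eq_zero_iff, one_ne_zero, and_false, not_false_eq_true, zero_pow,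
      sub_zero]
    field_simp
    ring
  rw [hr, ← intervalIntegral.integral_const_mul, ← intervalIntegral.integral_const_mul]
  refine intervalIntegral.integral_mono_on hx ((hint1.const_mul _).const_mul _)
    (Continuous.intervalIntegrable (by fun_prop) _ _) ?_
  intro y hy
  set s := fld δ M y
  have hs : s ^ 2 * y ≤ M - y := by
    have hyM : y ≤ M := hy.2.trans hxM
    simp only [s, fld]
    rw [Real.sq_sqrt (div_nonneg (by linarith) (by linarith [hy.1])),
      div_mul_eq_mul_div, div_le_iff₀ (by linarith [hy.1])]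
    nlinarith
  simp only [show j + 2 - 1 = j + 1 by omega]
  have p1 := mul_nonneg (mul_nonneg (sq_nonneg lam) (pow_nonneg hy.1 j)) (sub_nonneg.2 hs)
  have p2 := mul_nonneg (pow_nonneg hy.1 (j+1)) (sq_nonneg (1 - lam * s))
  have p3 : 0 ≤ (↑(j+2) : ℝ) := by positivity
  change 2 * lam * ((↑(j+2) : ℝ) * (s * y ^ (j+1))) ≤ _
  rw [pow_succ] at p2 ⊢
  nlinarith [mul_nonneg p3 p1, mul_nonneg p3 p2]

/-- The value of the test functional at a multiple of the field, with the endpoint jump. -/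
theorem test_ge (hn : 2 ≤ n) {F ψ₀ : ℝ → ℝ} (hF : ContDiff ℝ 2 F) (hψ : ContDiff ℝ 2 ψ₀) {δ : ℝ}
    (hδ : 0 < δ) (hF0 : ∀ t ∈ Icc (0:ℝ) 1, 0 ≤ F t) (hF' : ∀ t ∈ Icc (0:ℝ) 1, deriv F t ≤ 0)
    (hFM : ∀ t ∈ Icc (0:ℝ) 1, F t ≤ F 0)
    (hrel : ∀ t ∈ Icc (0:ℝ) 1, ψ₀ t = fld δ (F 0) (F t)) (lam : ℝ) :
    2 * lam * n * (∫ y in (0:ℝ)..F 0, fld δ (F 0) y * y ^ (n-1))
      - lam ^ 2 * ((n:ℝ) ^ 2 / (n - 1) * F 0 * (∫ t in (0:ℝ)..1, F t ^ (n-1))
        - ((n:ℝ) + 1) * ∫ t in (0:ℝ)..1, F t ^ n) ≤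
      (∫ t in (0:ℝ)..1, coef n (fun t => lam * ψ₀ t) (fun t => lam * deriv ψ₀ t) t * F t ^ n)
        + (1 - lam * ψ₀ 1) ^ 2 * F 1 ^ n := by
  have hn' : (1:ℝ) < n := by exact_mod_cast hn
  set M := F 0 with hM
  have hψc := hψ.continuous
  have hdc : Continuous (deriv ψ₀) := hψ.continuous_deriv (by norm_num)
  have hFc := hF.continuous
  have hFd : Continuous (deriv F) := hF.continuous_deriv (by norm_num)
  have dF : ∀ t, HasDerivAt F (deriv F t) t := fun t => (hF.differentiable (by norm_num) t).hasDerivAt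
  have dψ : ∀ t, HasDerivAt ψ₀ (deriv ψ₀ t) t := fun t => (hψ.differentiable (by norm_num) t).hasDerivAt
  have hi : ∀ {g : ℝ → ℝ}, Continuous g → IntervalIntegrable g volume 0 1 := fun h =>
    h.intervalIntegrable _ _
  set ν := (n : ℝ) with hν
  -- integration by parts, linear part
  have e1 : (∫ t in (0:ℝ)..1, deriv ψ₀ t * F t ^ n) = ψ₀ 1 * F 1 ^ n - ψ₀ 0 * F 0 ^ n -
      ∫ t in (0:ℝ)..1, ψ₀ t * (ν * F t ^ (n-1) * deriv F t) := by
    rw [eq_sub_iff_add_eq, ← intervalIntegral.integral_add (hi (by fun_prop)) (hi (by fun_prop))]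
    exact intervalIntegral.integral_eq_sub_of_hasDerivAt
      (f := fun t => ψ₀ t * F t ^ n) (fun t _ => (dψ t).mul ((dF t).fun_pow n)) (hi (by fun_prop))
  have e2 : (∫ t in (0:ℝ)..1, ((ν + 1) * ψ₀ t ^ 2 + 2 * t * ψ₀ t * deriv ψ₀ t) * F t ^ n) =
      ψ₀ 1 ^ 2 * F 1 ^ n +
        ν * ∫ t in (0:ℝ)..1, ψ₀ t ^ 2 * F t ^ (n-1) * (F t - t * deriv F t) := by
    have hd : ∀ t ∈ uIcc (0:ℝ) 1, HasDerivAt (fun t => t * (ψ₀ t ^ 2 * F t ^ n))
        (((ν + 1) * ψ₀ t ^ 2 + 2 * t * ψ₀ t * deriv ψ₀ t) * F t ^ n -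
          ν * (ψ₀ t ^ 2 * F t ^ (n-1) * (F t - t * deriv F t))) t := by
      intro t _
      refine ((hasDerivAt_id t).mul (((dψ t).fun_pow 2).mul ((dF t).fun_pow n))).congr_deriv ?_
      have : F t ^ n = F t ^ (n-1) * F t := by rw [← pow_succ]; congr 1; omega
      simp only [id, Pi.mul_apply, Nat.cast_ofNat, Nat.add_one_sub_one, pow_one, this, hν]
      ring
    have := intervalIntegral.integral_eq_sub_of_hasDerivAt hd (hi (by fun_prop))
    rw [intervalIntegral.integral_sub (hi (by fun_prop)) (hi (by fun_prop)),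
      intervalIntegral.integral_const_mul] at this
    simp only [one_mul, zero_mul, sub_zero] at this
    linarith
  have hψ0 : ψ₀ 0 = 0 := by
    rw [hrel 0 (left_mem_Icc.2 zero_le_one), fld]; simp [hM]
  -- change of variables in the linear part
  set h : ℝ → ℝ := fun y => fld δ M y * y ^ (n-1) with hh
  have hhc : ContinuousOn h (Ici 0) := (fld_continuousOn hδ M).mul (continuousOn_id.pow _)
  have hF1 := hF0 1 (right_mem_Icc.2 zero_le_one)
  have hM0 := hF0 0 (left_mem_Icc.2 zero_le_one)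
  have hF1M := hFM 1 (right_mem_Icc.2 zero_le_one)
  have e3 : (∫ t in (0:ℝ)..1, ψ₀ t * (ν * F t ^ (n-1) * deriv F t)) = ν * ∫ y in M..F 1, h y := by
    have := intervalIntegral.integral_comp_mul_deriv' (a := (0:ℝ)) (b := 1) (f := F)
      (f' := deriv F) (g := h) (fun t _ => dF t) hFd.continuousOn
      (hhc.mono (by
        rintro _ ⟨t, ht, rfl⟩
        rw [uIcc_of_le zero_le_one] at ht
        exact hF0 t ht))
    rw [← this, ← intervalIntegral.integral_const_mul]
    refine intervalIntegral.integral_congr fun t ht => ?_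
    rw [uIcc_of_le zero_le_one] at ht
    simp only [Function.comp_apply, hh, hrel t ht]
    ring
  -- the quadratic part
  set G := ∫ t in (0:ℝ)..1, F t ^ (n-1) with hG
  set W := ∫ t in (0:ℝ)..1, F t ^ n with hW
  have e5 := quad_le hn hF hψc hδ hF0 hF' hFM hrel
  rw [← hM, ← hν, ← hG, ← hW] at e5
  -- the part below the endpoint
  have hsub : uIcc (0:ℝ) (F 1) ⊆ Ici 0 := by rw [uIcc_of_le hF1]; exact Icc_subset_Ici_self
  have hint1 : IntervalIntegrable h volume 0 (F 1) := (hhc.mono hsub).intervalIntegrable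
  have hint2 : IntervalIntegrable h volume (F 1) M :=
    (hhc.mono (by rw [uIcc_of_le hF1M]; intro y hy; exact hF1.trans hy.1)).intervalIntegrable
  have e6 := below_le hn hδ hF1 hF1M lam
  rw [← hν] at e6
  have esplit : (∫ y in (0:ℝ)..M, h y) = (∫ y in (0:ℝ)..F 1, h y) + ∫ y in F 1..M, h y :=
    (intervalIntegral.integral_add_adjacent_intervals hint1 hint2).symm
  have etot : (∫ t in (0:ℝ)..1, coef n (fun t => lam * ψ₀ t) (fun t => lam * deriv ψ₀ t) t * F t ^ n)
      = 2 * lam * (∫ t in (0:ℝ)..1, deriv ψ₀ t * F t ^ n) - lam ^ 2 *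
        ∫ t in (0:ℝ)..1, ((ν + 1) * ψ₀ t ^ 2 + 2 * t * ψ₀ t * deriv ψ₀ t) * F t ^ n := by
    rw [← intervalIntegral.integral_const_mul, ← intervalIntegral.integral_const_mul,
      ← intervalIntegral.integral_sub (hi (by fun_prop)) (hi (by fun_prop))]
    refine intervalIntegral.integral_congr fun t _ => ?_
    simp only [coef, hν]
    ring
  rw [intervalIntegral.integral_symm (F 1) M] at e3
  rw [hψ0, e3] at e1
  rw [etot, e1, e2, esplit]
  have hν0 : ν ≠ 0 := by positivity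
  have h2 : ν - 1 ≠ 0 := (sub_pos.2 hn').ne'
  have e7 := mul_le_mul_of_nonneg_left e5 (mul_nonneg (sq_nonneg lam) (show 0 ≤ ν by positivity))
  have e8 : lam ^ 2 * ν *
      (M * G - W - M * (F 1 ^ (n-1) / (ν - 1) - G / (ν - 1)) + (F 1 ^ n / ν - W / ν)) =
      lam ^ 2 * (ν ^ 2 / (ν - 1) * M * G - (ν + 1) * W) -
        lam ^ 2 * (ν * M * F 1 ^ (n-1) / (ν - 1) - F 1 ^ n) := by
    field_simp
    ring
  nlinarith [e6, e7, e8]

end

end Vale.Agent.P237.Gen.GN
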