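import Vale.Agent.P237.Gen.GN.Petty
import Vale.Agent.P237.Four.Equality

/-!
Petty's inequality in every dimension up to `exp (-3 / 14)`: the contact bounds of slice dimensions
two and three are sharp, so only the losses from slice dimension four on remain.
-/

namespace Vale.Agent.P237.Gen.GN

open MeasureTheory Set Finset Real
open Contact (pw semi Adm)

noncomputable section

/-- The losses of the contact bounds: none below slice dimension four. -/
def lossFour (n : ℕ) : ℝ := if n < 4 then 1 else gnRho n

theorem lossFour_pos {n : ℕ} (hn : 2 ≤ n) : 0 < lossFour n := by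
  unfold lossFour
  split
  · exact one_pos
  · exact gnRho_pos hn

/-- The contact bounds with these losses. -/
theorem contactBound_lossFour {n : ℕ} (hn : 2 ≤ n) :
    ContactBound n (pcN (n + 1) / pcN n * lossFour n) := by
  unfold lossFour
  split
  · rename_i h
    rw [mul_one]
    interval_cases n
    · exact Four.sharpContact_two
    · exact Four.sharpContact_three Four.stage_lemma
  · exact contactBound_gn hn

/-- The logarithms of the losses from slice dimension four on telescope to at least `-3 / 14`. -/
theorem exp_le_prod_lossFour (N : ℕ) :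
    exp (-(3 / 14)) ≤ ∏ n ∈ Finset.Ico 2 N, lossFour n := by
  have key : ∀ m : ℕ,
      -(3 / 4) * (2 / 7 - 1 / (max (m : ℝ) 2 + 3 / 2)) ≤
        ∑ i ∈ Finset.range m, log (lossFour (i + 2)) := by
    intro m
    induction m with
    | zero => norm_num
    | succ m ih =>
      rw [Finset.sum_range_succ]
      rcases lt_or_ge m 2 with hm | hm
      · have e : lossFour (m + 2) = 1 := if_pos (by omega)
        have h1 : max (((m + 1 : ℕ) : ℝ)) 2 = max (m : ℝ) 2 := by
          have : ((m + 1 : ℕ) : ℝ) ≤ 2 := by exact_mod_cast hm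
          rw [max_eq_right this, max_eq_right (by push_cast at this; linarith)]
        rw [e, log_one, add_zero, h1]
        exact ih
      · have e : lossFour (m + 2) = gnRho (m + 2) := if_neg (by omega)
        have h2 := two_mul_log_gnRho_ge m
        have e' : (3 / 2 : ℝ) / (((m : ℝ) + 3 / 2) * ((m : ℝ) + 5 / 2)) =
            3 / 2 * (1 / ((m : ℝ) + 3 / 2) - 1 / ((m : ℝ) + 5 / 2)) := by
          field_simp; ring
        rw [e'] at h2
        have hm' : (2 : ℝ) ≤ m := by exact_mod_cast hm
        rw [max_eq_left hm'] at ih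
        push_cast
        rw [max_eq_left (by linarith), e,
          show (m : ℝ) + 1 + 3 / 2 = (m : ℝ) + 5 / 2 by ring]
        linarith
  rcases le_or_gt N 2 with hN | hN
  · rw [Finset.Ico_eq_empty (by omega), Finset.prod_empty]
    exact exp_le_one_iff.2 (by norm_num)
  obtain ⟨m, rfl⟩ := Nat.exists_eq_add_of_le hN.le
  rw [Finset.prod_Ico_eq_prod_range, show 2 + m - 2 = m by omega]
  simp only [add_comm 2]
  have hpos : ∀ i, 0 < lossFour (i + 2) := fun i => lossFour_pos (by omega)
  rw [← exp_log (Finset.prod_pos fun i _ => hpos i), log_prod fun i _ => (hpos i).ne']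
  refine exp_le_exp.2 (le_trans ?_ (key m))
  have : 0 ≤ 1 / (max (m : ℝ) 2 + 3 / 2) := by positivity
  linarith

/-- Petty's inequality in coordinates up to the factor `exp (-3 / 14)`. -/
theorem petty_piSet_sharp (N : ℕ) (hN : 2 ≤ N) (S : Set (Fin N → ℝ)) (hS : IsCompact S)
    (hc : Convex ℝ S) :
    Real.exp (-(3 / 14)) * pcN N * volume.real S ^ (N - 1) ≤ volume.real (AllN.piSet S) := by
  refine le_trans ?_ (petty_of_contact (fun n hn => lossFour_pos hn)
    (fun n hn => contactBound_lossFour hn) N hN S hS hc)
  rw [mul_comm (Real.exp _)]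
  exact mul_le_mul_of_nonneg_right
    (mul_le_mul_of_nonneg_left (exp_le_prod_lossFour N) (pcN_pos N).le)
    (pow_nonneg measureReal_nonneg _)

/-- **Petty's inequality up to `exp (-3 / 14)`** in Euclidean space. -/
theorem petty_projBody_sharp {n : ℕ} (hn : 1 ≤ n) {K : Set (EuclideanSpace ℝ (Fin (n + 1)))}
    (hc : Convex ℝ K) (hk : IsCompact K) :
    Real.exp (-(3 / 14)) * pcN (n + 1) * volume.real K ^ n ≤ volume.real (projBody K) := by
  have hk' : IsCompact (WithLp.ofLp '' K) := hk.image (PiLp.continuous_ofLp 2 _)
  have hc' : Convex ℝ (WithLp.ofLp '' K) :=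
    hc.linear_image (WithLp.linearEquiv 2 ℝ (Fin (n + 1) → ℝ)).toLinearMap
  have h := petty_piSet_sharp (n + 1) (by omega) (WithLp.ofLp '' K) hk' hc'
  have hvK : volume.real (WithLp.ofLp '' K) = volume.real K := by
    have e : K = WithLp.ofLp ⁻¹' (WithLp.ofLp '' K) :=
      (preimage_image_eq K (WithLp.ofLp_injective 2)).symm
    conv_rhs => rw [e]
    rw [measureReal_def, measureReal_def,
      (PiLp.volume_preserving_ofLp (Fin (n + 1))).measure_preimage
        hk'.measurableSet.nullMeasurableSet]
  rw [hvK, Nat.add_sub_cancel] at h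
  rw [projBody_eq hc hk, measureReal_def (s := WithLp.ofLp ⁻¹' _),
    (PiLp.volume_preserving_ofLp (Fin (n + 1))).measure_preimage
      (show IsCompact (AllN.piSet (WithLp.ofLp '' K)) from
        AllN.isCompact_sub _).measurableSet.nullMeasurableSet, ← measureReal_def]
  exact h

end

end Vale.Agent.P237.Gen.GN
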